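import Vale.Agent.P022.H420.CM2

/-!
P022, explicit reciprocity for `K = ℚ(√-3)`: the character of `G_K` on the `2^∞`-torsion
(block [CHAR] of H420/CM2.lean).
-/

open WeierstrassCurve WeierstrassCurve.Affine NumberField Filter

noncomputable section

namespace Vale.Agent.P022.H553.CM

open Vale.Agent.P022 Vale.Agent.P022.CM

section en

variable {L : Type*} [Field L] [DecidableEq L] {B : L} (h6 : (6 : L) * B ≠ 0) (w : L)
  (hw : w ^ 2 + w + 1 = 0)

theorem om_om (P : Pt B) : om h6 w hw (om h6 w hw P) = -om h6 w hw P - P := by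
  have h := om_rel h6 w hw P
  rw [← sub_eq_zero, ← h]
  abel

theorem en_add (a b c d : ℤ) (P : Pt B) :
    en h6 w hw (a + c) (b + d) P = en h6 w hw a b P + en h6 w hw c d P := by
  simp only [en_apply]
  module

theorem en_sub (a b c d : ℤ) (P : Pt B) :
    en h6 w hw (a - c) (b - d) P = en h6 w hw a b P - en h6 w hw c d P := by
  simp only [en_apply]
  module

theorem en_mul (a b c d : ℤ) (P : Pt B) : en h6 w hw a b (en h6 w hw c d P) =
    en h6 w hw (a * c - b * d) (a * d + b * c - b * d) P := by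
  simp only [en_apply, map_add, map_zsmul, om_om]
  module

theorem en_comm (a b c d : ℤ) (P : Pt B) :
    en h6 w hw a b (en h6 w hw c d P) = en h6 w hw c d (en h6 w hw a b P) := by
  rw [en_mul, en_mul]
  congr 2 <;> ring_nf

theorem en_one (P : Pt B) : en h6 w hw 1 0 P = P := by
  simp [en_apply]

theorem mp_om {σ : L →+* L} (hB : σ B = B) (hσ : σ w = w) (P : Pt B) :
    mp σ hB h6 (om h6 w hw P) = om h6 w hw (mp σ hB h6 P) := by
  rcases P with _ | ⟨x, y, h⟩
  · rfl
  · have he := eqn.1 h.1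
    have hs : (σ y) ^ 2 = (σ x) ^ 3 + B := by
      have := congrArg σ he
      simpa [hB] using this
    have n1 : (Wc B).Nonsingular (w * x) y := nons h6 (by
      linear_combination he - x ^ 3 * (w3 hw))
    have n2 : (Wc B).Nonsingular (σ (w * x)) (σ y) := nons h6 (by
      rw [map_mul, hσ]
      linear_combination hs - (σ x) ^ 3 * (w3 hw))
    have n3 : (Wc B).Nonsingular (σ x) (σ y) := nons h6 hs
    have n4 : (Wc B).Nonsingular (w * σ x) (σ y) := nons h6 (by
      linear_combination hs - (σ x) ^ 3 * (w3 hw))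
    rw [om_some h6 w hw h n1, mp_some σ hB h6 n1 n2, mp_some σ hB h6 h n3,
      om_some h6 w hw n3 n4, Point.some.injEq]
    exact ⟨by rw [map_mul, hσ], rfl⟩

theorem mp_en {σ : L →+* L} (hB : σ B = B) (hσ : σ w = w) (a b : ℤ) (P : Pt B) :
    mp σ hB h6 (en h6 w hw a b P) = en h6 w hw a b (mp σ hB h6 P) := by
  simp only [en_apply, map_add, map_zsmul, mp_om h6 w hw hB hσ]

end en

section act

variable [DecidableEq Qb] (b : ℤ) (h6 : (6 : Qb) * (b : Qb) ≠ 0)

include h6 in
omit [DecidableEq Qb] in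
theorem nsg (g : GQ) {x y : Qb} (h : (Wc (b : Qb)).Nonsingular x y) :
    (Wc (b : Qb)).Nonsingular (g x) (g y) := nons h6 (by
  have := congrArg g (eqn.1 h.1)
  simpa using this)

theorem gact_some (g : GQ) {x y : Qb} (h : (Wc (b : Qb)).Nonsingular x y) :
    gact b h6 g (Point.some x y h) = Point.some (g x) (g y) (nsg b h6 g h) :=
  mp_some _ _ h6 h _

theorem gact_one (P : Pt (b : Qb)) : gact b h6 1 P = P := by
  rcases P with _ | ⟨x, y, h⟩
  · rfl
  · rw [gact_some]
    rfl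

theorem gact_mul (g h : GQ) (P : Pt (b : Qb)) : gact b h6 (g * h) P =
    gact b h6 g (gact b h6 h P) := by
  rcases P with _ | ⟨x, y, h⟩
  · rfl
  · rw [gact_some, gact_some, gact_some]
    rfl

theorem gact_fix (g : GQ) {x y : Qb} (h : (Wc (b : Qb)).Nonsingular x y) (hx : g x = x)
    (hy : g y = y) : gact b h6 g (Point.some x y h) = Point.some x y h := by
  rw [gact_some, Point.some.injEq]
  exact ⟨hx, hy⟩

/-- the stabilizer of a point is open -/
theorem stab_open (P : Pt (b : Qb)) : ∃ U : Subgroup GQ, IsOpen (U : Set GQ) ∧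
    ∀ g ∈ U, gact b h6 g P = P := by
  rcases P with _ | ⟨x, y, h⟩
  · exact ⟨⊤, isOpen_univ, fun g _ => rfl⟩
  · let F : IntermediateField ℚ Qb := IntermediateField.adjoin ℚ {x, y}
    have hal : Algebra.IsAlgebraic ℚ Qb := AlgebraicClosure.isAlgebraic ℚ
    have hfd : FiniteDimensional ℚ F := by
      apply IntermediateField.finiteDimensional_adjoin
      intro z _
      exact (hal.isAlgebraic z).isIntegral
    refine ⟨F.fixingSubgroup, IntermediateField.fixingSubgroup_isOpen F, fun g hg => ?_⟩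
    have hx : x ∈ F := IntermediateField.subset_adjoin ℚ _ (by simp)
    have hy : y ∈ F := IntermediateField.subset_adjoin ℚ _ (by simp)
    exact gact_fix b h6 g h (hg ⟨x, hx⟩) (hg ⟨y, hy⟩)

end act

section E

variable {K : Type} [Field K] {ζ : K} (hζ : ζ ^ 2 + ζ + 1 = 0)
  {E : Type} [NontriviallyNormedField E] [NormedAlgebra ℚ_[2] E] [IsUltrametricDist E]
  (ι : K →+* E)

omit [NormedAlgebra ℚ_[2] E] in
theorem norm_int (a : ℤ) : ‖(a : E)‖ ≤ 1 := IsUltrametricDist.norm_intCast_le_one E a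

omit [NormedAlgebra ℚ_[2] E] [IsUltrametricDist E] in
include hζ in
theorem norm_z : ‖ι ζ‖ ≤ 1 := by
  have h3 : ζ ^ 3 = 1 := by linear_combination (ζ - 1) * hζ
  have h : ‖ι ζ‖ ^ 3 = 1 := by rw [← norm_pow, ← map_pow, h3, map_one, norm_one]
  by_contra hc
  push Not at hc
  have := one_lt_pow₀ hc (n := 3) (by norm_num)
  rw [h] at this
  exact lt_irrefl _ this

omit [NormedAlgebra ℚ_[2] E] in
include hζ in
theorem norm_s (x y : ℤ) : ‖ι (x + y * ζ)‖ ≤ 1 := by
  rw [map_add, map_mul, map_intCast, map_intCast]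
  refine (IsUltrametricDist.norm_add_le_max _ _).trans (max_le (norm_int x) ?_)
  rw [norm_mul]
  exact mul_le_one₀ (norm_int y) (norm_nonneg _) (norm_z hζ ι)

omit [NormedAlgebra ℚ_[2] E] in
include hζ in
theorem norm_dvd {x y : ℤ} {n : ℕ} (hx : (2 ^ n : ℤ) ∣ x) (hy : (2 ^ n : ℤ) ∣ y) :
    ‖ι (x + y * ζ)‖ ≤ ‖(2 : E)‖ ^ n := by
  obtain ⟨u, rfl⟩ := hx
  obtain ⟨v, rfl⟩ := hy
  have e : ι (((2 ^ n * u : ℤ) : K) + ((2 ^ n * v : ℤ) : K) * ζ) = 2 ^ n * ι (u + v * ζ) := by
    simp only [Int.cast_mul, Int.cast_pow, Int.cast_ofNat, map_add, map_mul, map_pow, map_intCast,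
      map_ofNat]
    ring
  rw [e, norm_mul, norm_pow]
  exact mul_le_of_le_one_right (by positivity) (norm_s hζ ι u v)

omit [IsUltrametricDist E] in
theorem norm_two_lt : ‖(2 : E)‖ < 1 := by
  have e : (2 : E) = algebraMap ℚ_[2] E 2 := by rw [map_ofNat]
  rw [e, norm_algebraMap', show (2 : ℚ_[2]) = ((2 : ℕ) : ℚ_[2]) by norm_num]
  exact Padic.norm_p_lt_one

/-- a `2`-adic limit -/
theorem lim_exists [CompleteSpace E] (x y : ℕ → ℤ)
    (hx : ∀ n, (2 ^ n : ℤ) ∣ x (n + 1) - x n) (hy : ∀ n, (2 ^ n : ℤ) ∣ y (n + 1) - y n)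
    (hζ : ζ ^ 2 + ζ + 1 = 0) :
    ∃ z : E, ∀ n, ‖z - ι (x n + y n * ζ)‖ ≤ ‖(2 : E)‖ ^ n := by
  have hlt : ‖(2 : E)‖ < 1 := norm_two_lt
  set s : ℕ → E := fun n => ι (x n + y n * ζ) with hs
  have step : ∀ n, ‖s (n + 1) - s n‖ ≤ ‖(2 : E)‖ ^ n := by
    intro n
    have e : s (n + 1) - s n = ι (((x (n + 1) - x n : ℤ) : K) + ((y (n + 1) - y n : ℤ) : K) * ζ) := by
      simp only [hs, ← map_sub]
      congr 1
      push_cast
      ring
    rw [e]
    exact norm_dvd hζ ι (hx n) (hy n)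
  have far : ∀ n k, ‖s (n + k) - s n‖ ≤ ‖(2 : E)‖ ^ n := by
    intro n k
    induction k with
    | zero => simp
    | succ k ih =>
      have e : s (n + (k + 1)) - s n = (s (n + k + 1) - s (n + k)) + (s (n + k) - s n) := by
        rw [← add_assoc]; ring
      rw [e]
      refine (IsUltrametricDist.norm_add_le_max _ _).trans (max_le ?_ ih)
      refine (step _).trans (pow_le_pow_of_le_one (norm_nonneg _) hlt.le (by omega))
  have hc : CauchySeq s := by
    rw [Metric.cauchySeq_iff']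
    intro ε hε
    obtain ⟨n, hn⟩ := exists_pow_lt_of_lt_one hε hlt
    refine ⟨n, fun m hm => ?_⟩
    obtain ⟨k, rfl⟩ := Nat.exists_eq_add_of_le hm
    rw [dist_eq_norm]
    exact (far n k).trans_lt hn
  obtain ⟨z, hz⟩ := cauchySeq_tendsto_of_complete hc
  refine ⟨z, fun n => ?_⟩
  have ht : Tendsto (fun m => ‖s m - s n‖) atTop (nhds ‖z - s n‖) :=
    (hz.sub_const (s n)).norm
  refine le_of_tendsto ht ?_
  filter_upwards [eventually_ge_atTop n] with m hm
  obtain ⟨k, rfl⟩ := Nat.exists_eq_add_of_le hm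
  exact far n k

omit [IsUltrametricDist E] in
theorem zero_of {z : E} (h : ∀ n : ℕ, ‖z‖ ≤ ‖(2 : E)‖ ^ n) : z = 0 := by
  have ht : Tendsto (fun n : ℕ => ‖(2 : E)‖ ^ n) atTop (nhds 0) :=
    tendsto_pow_atTop_nhds_zero_of_lt_one (norm_nonneg _) norm_two_lt
  have := ge_of_tendsto' ht h
  exact norm_le_zero_iff.1 this

end E

/-- [CHAR] of H420/CM2.lean -/
theorem CHAR (hT : TORStmt) : CHARStmt := by
  intro _ K _ _ ζ hζ _ E _ _ _ _ ι j b h6 hw
  obtain ⟨P, hP0, hP, hgen, hker⟩ := hT Qb (b : Qb) h6 (j ζ) hw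
  have htor : ∀ n, (2 ^ n : ℕ) • P n = 0 := by
    intro n
    induction n with
    | zero => simp [hP0]
    | succ n ih => rw [pow_succ, mul_smul, hP, ih]
  have hex : ∀ (g : GK j) (n : ℕ), ∃ a c : ℤ,
      gact b h6 g (P n) = en h6 (j ζ) hw a c (P n) := by
    intro g n
    apply hgen
    rw [← map_nsmul, htor, map_zero]
  choose X Y hXY using hex
  have huniq : ∀ (n : ℕ) (a c a' c' : ℤ),
      en h6 (j ζ) hw a c (P n) = en h6 (j ζ) hw a' c' (P n) →
      (2 ^ n : ℤ) ∣ a - a' ∧ (2 ^ n : ℤ) ∣ c - c' := by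
    intro n a c a' c' h
    apply hker
    rw [en_sub, h, sub_self]
  have hstep : ∀ g n, (2 ^ n : ℤ) ∣ X g (n + 1) - X g n ∧
      (2 ^ n : ℤ) ∣ Y g (n + 1) - Y g n := by
    intro g n
    apply huniq
    rw [← hXY g n, ← hP n, map_nsmul, map_nsmul, hXY g (n + 1)]
  have hcs : CompleteSpace E := FiniteDimensional.complete ℚ_[2] E
  have hlim : ∀ g : GK j, ∃ z : E, ∀ n, ‖z - ι (X g n + Y g n * ζ)‖ ≤ ‖(2 : E)‖ ^ n :=
    fun g => lim_exists ι (X g) (Y g) (fun n => (hstep g n).1) (fun n => (hstep g n).2) hζ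
  choose φ hφ using hlim
  have key : ∀ (g : GK j) (n : ℕ) (a c : ℤ),
      gact b h6 g (P n) = en h6 (j ζ) hw a c (P n) →
      ‖φ g - ι (a + c * ζ)‖ ≤ ‖(2 : E)‖ ^ n := by
    intro g n a c h
    obtain ⟨h1, h2⟩ := huniq n (X g n) (Y g n) a c (by rw [← hXY, h])
    have e : φ g - ι (a + c * ζ) = (φ g - ι (X g n + Y g n * ζ)) +
        ι (((X g n - a : ℤ) : K) + ((Y g n - c : ℤ) : K) * ζ) := by
      push_cast
      simp only [map_add, map_mul, map_sub]
      ring
    rw [e]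
    exact (IsUltrametricDist.norm_add_le_max _ _).trans
      (max_le (hφ g n) (norm_dvd hζ ι h1 h2))
  have hle : ∀ g, ‖φ g‖ ≤ 1 := by
    intro g
    have e : φ g = (φ g - ι (X g 0 + Y g 0 * ζ)) + ι (X g 0 + Y g 0 * ζ) := by ring
    rw [e]
    refine (IsUltrametricDist.norm_add_le_max _ _).trans (max_le ?_ (norm_s hζ ι _ _))
    simpa using hφ g 0
  have φ1 : φ 1 = 1 := by
    rw [← sub_eq_zero]
    apply zero_of
    intro n
    have := key 1 n 1 0 (by rw [en_one]; exact gact_one b h6 _)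
    simpa using this
  have φm : ∀ g h, φ (g * h) = φ g * φ h := by
    intro g h
    rw [← sub_eq_zero]
    apply zero_of
    intro n
    have hg : (g : GQ) (j ζ) = j ζ := g.2 ζ
    have h1 : gact b h6 (g * h : GK j) (P n) = en h6 (j ζ) hw
        (X h n * X g n - Y h n * Y g n)
        (X h n * Y g n + Y h n * X g n - Y h n * Y g n) (P n) := by
      rw [← en_mul, Subgroup.coe_mul, gact_mul, hXY h n]
      have := mp_en h6 (j ζ) hw (σ := ((g : GQ) : Qb →+* Qb)) (by simp) hg (X h n) (Y h n) (P n)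
      unfold gact
      rw [this]
      congr 1
      exact hXY g n
    have h2 := key _ n _ _ h1
    have e : φ (g * h) - φ g * φ h =
        ((φ (g * h) - ι (((X h n * X g n - Y h n * Y g n : ℤ) : K) +
          ((X h n * Y g n + Y h n * X g n - Y h n * Y g n : ℤ) : K) * ζ)) +
        (-((φ g - ι (X g n + Y g n * ζ)) * φ h))) +
        (-(ι (X g n + Y g n * ζ) * (φ h - ι (X h n + Y h n * ζ)))) := by
      have e1 : ι (((X h n * X g n - Y h n * Y g n : ℤ) : K) +
          ((X h n * Y g n + Y h n * X g n - Y h n * Y g n : ℤ) : K) * ζ) =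
          ι (X g n + Y g n * ζ) * ι (X h n + Y h n * ζ) := by
        rw [← map_mul]
        congr 1
        push_cast
        linear_combination (-(Y g n * Y h n) : K) * hζ
      rw [e1]
      ring
    rw [e]
    refine (IsUltrametricDist.norm_add_le_max _ _).trans (max_le
      ((IsUltrametricDist.norm_add_le_max _ _).trans (max_le h2 ?_)) ?_)
    · rw [norm_neg, norm_mul]
      exact (mul_le_of_le_one_right (norm_nonneg _) (hle h)).trans (hφ g n)
    · rw [norm_neg, norm_mul]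
      exact (mul_le_of_le_one_left (norm_nonneg _) (norm_s hζ ι _ _)).trans (hφ h n)
  let Ψ : GK j →* E := { toFun := φ, map_one' := φ1, map_mul' := φm }
  have hΨ : Continuous Ψ := by
    apply continuous_of_continuousAt_one
    rw [Metric.continuousAt_iff']
    intro ε hε
    obtain ⟨n, hn⟩ := exists_pow_lt_of_lt_one hε (norm_two_lt (E := E))
    obtain ⟨U, hU, hU'⟩ := stab_open b h6 (P n)
    have hU2 : IsOpen {g : GK j | (g : GQ) ∈ U} := hU.preimage continuous_subtype_val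
    filter_upwards [hU2.mem_nhds (U.one_mem : ((1 : GK j) : GQ) ∈ U)] with g hg
    rw [map_one, dist_eq_norm]
    have := key g n 1 0 (by rw [en_one]; exact hU' _ hg)
    have h3 : ‖φ g - 1‖ ≤ ‖(2 : E)‖ ^ n := by simpa using this
    exact h3.trans_lt hn
  refine ⟨Ψ.toHomUnits, ?_, ?_⟩
  · rw [Units.continuous_iff]
    refine ⟨hΨ, ?_⟩
    have : (fun g : GK j => (((Ψ.toHomUnits g)⁻¹ : Eˣ) : E)) = fun g => Ψ g⁻¹ := by
      funext g
      rw [← map_inv]
      rfl
    rw [this]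
    exact hΨ.comp continuous_inv
  · intro g n
    refine ⟨X g n, Y g n, hφ g n, fun Q hQ => ?_⟩
    obtain ⟨a, c, rfl⟩ := hgen n Q hQ
    have hg : (g : GQ) (j ζ) = j ζ := g.2 ζ
    have := mp_en h6 (j ζ) hw (σ := ((g : GQ) : Qb →+* Qb)) (by simp) hg a c (P n)
    rw [en_comm, ← hXY g n]
    exact this

end Vale.Agent.P022.H553.CM
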